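import Vale.Agent.P038.Defs

/-!
# The inequality for all sets in an arc-minimal counterexample
-/

namespace Vale.Agent.P038.H873

open Finset

variable {V : Type*} [Fintype V] [DecidableEq V]

open Classical in
/-- The closed out-neighbourhood of a set. -/
noncomputable def cl (D : OGraph V) (S : Finset V) : Finset V :=
  univ.filter fun z => z ∈ S ∨ ∃ y ∈ S, D.arc y z

theorem mem_cl {D : OGraph V} {S : Finset V} {z : V} :
    z ∈ cl D S ↔ z ∈ S ∨ ∃ y ∈ S, D.arc y z := by
  simp [cl]

theorem subset_cl (D : OGraph V) (S : Finset V) : S ⊆ cl D S := fun _ h => mem_cl.2 (Or.inl h)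

theorem cl_mono {D : OGraph V} {S T : Finset V} (h : S ⊆ T) : cl D S ⊆ cl D T := by
  intro z hz
  rw [mem_cl] at hz ⊢
  rcases hz with hz | ⟨y, hy, hyz⟩
  · exact Or.inl (h hz)
  · exact Or.inr ⟨y, h hy, hyz⟩

theorem cl_union {D : OGraph V} {S T : Finset V} : cl D (S ∪ T) = cl D S ∪ cl D T := by
  ext z
  simp only [mem_cl, mem_union]
  constructor
  · rintro (h | ⟨y, hy, hyz⟩)
    · rcases h with h | h
      · exact Or.inl (Or.inl h)
      · exact Or.inr (Or.inl h)
    · rcases hy with h | h
      · exact Or.inl (Or.inr ⟨y, h, hyz⟩)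
      · exact Or.inr (Or.inr ⟨y, h, hyz⟩)
  · rintro ((h | ⟨y, hy, hyz⟩) | (h | ⟨y, hy, hyz⟩))
    · exact Or.inl (Or.inl h)
    · exact Or.inr ⟨y, Or.inl hy, hyz⟩
    · exact Or.inl (Or.inr h)
    · exact Or.inr ⟨y, Or.inr hy, hyz⟩

/-- `c(S) = |N[S]| - |S|`, as a real number. -/
noncomputable def bd (D : OGraph V) (S : Finset V) : ℝ := ((cl D S).card : ℝ) - S.card

theorem bd_sub (D : OGraph V) (S T : Finset V) :
    bd D (S ∪ T) + bd D (S ∩ T) ≤ bd D S + bd D T := by
  have h1 : ((S ∪ T).card : ℝ) + (S ∩ T).card = S.card + T.card := by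
    exact_mod_cast card_union_add_card_inter S T
  have h2 : ((cl D S ∪ cl D T).card : ℝ) + (cl D S ∩ cl D T).card =
      (cl D S).card + (cl D T).card := by
    exact_mod_cast card_union_add_card_inter (cl D S) (cl D T)
  have h3 : ((cl D (S ∩ T)).card : ℝ) ≤ (cl D S ∩ cl D T).card := by
    exact_mod_cast card_le_card
      (subset_inter (cl_mono inter_subset_left) (cl_mono inter_subset_right))
  simp only [bd]
  rw [cl_union]
  linarith

/-- The excess of a vertex is positive. -/
def Bad (D : OGraph V) : Prop := ∀ v, (N2 D v).card < (N1 D v).card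

open Classical in
/-- The arcs as a finite set. -/
noncomputable def arcs (D : OGraph V) : Finset (V × V) := univ.filter fun q => D.arc q.1 q.2

/-- Delete the arcs from `X` to `Z`. -/
def del (D : OGraph V) (X Z : Finset V) : OGraph V where
  arc a b := D.arc a b ∧ ¬ (a ∈ X ∧ b ∈ Z)
  loopless v h := D.loopless v h.1
  asymm _ _ h h' := D.asymm _ _ h.1 h'.1

/-- An arc-minimal counterexample satisfies `c(N[X]) < c(X)` for every set `X` with `N[X] ≠ X`. -/
theorem strictG {D : OGraph V} (hD : Bad D)
    (hmin : ∀ D' : OGraph V, (∀ a b, D'.arc a b → D.arc a b) → Bad D' →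
      ∀ a b, D.arc a b → D'.arc a b)
    (X : Finset V) (hX : cl D X ≠ X) : bd D (cl D X) < bd D X := by
  classical
  set L := cl D X \ X with hL
  have hLX : Disjoint L X := sdiff_disjoint
  have hLne : L.Nonempty := by
    rw [hL, sdiff_nonempty]
    intro h
    exact hX (Subset.antisymm h (subset_cl D X))
  have hXL : X ∪ L = cl D X := by
    rw [hL]; exact union_sdiff_of_subset (subset_cl D X)
  have hLarc : ∀ {z}, z ∈ L → z ∉ X ∧ ∃ y ∈ X, D.arc y z := by
    intro z hz
    obtain ⟨h1, h2⟩ := mem_sdiff.1 hz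
    rcases mem_cl.1 h1 with h | h
    · exact absurd h h2
    · exact ⟨h2, h⟩
  set d : Finset V → ℤ := fun T => ((cl D T \ X).card : ℤ) - 2 * T.card with hd
  by_contra hcon
  push Not at hcon
  -- d L ≥ 0
  have hdL : 0 ≤ d L := by
    have e1 : (cl D (cl D X)).card = (cl D L \ X).card + X.card := by
      have : cl D (cl D X) = (cl D L \ X) ∪ X := by
        ext z
        simp only [mem_union, mem_sdiff]
        constructor
        · intro hz
          by_cases hzX : z ∈ X
          · exact Or.inr hzX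
          · refine Or.inl ⟨?_, hzX⟩
            rw [← hXL, cl_union, mem_union] at hz
            rcases hz with hz | hz
            · have : z ∈ L := mem_sdiff.2 ⟨hz, hzX⟩
              exact subset_cl D L this
            · exact hz
        · rintro (⟨hz, _⟩ | hz)
          · exact cl_mono sdiff_subset hz
          · exact subset_cl _ _ (subset_cl _ _ hz)
      rw [this, card_union_of_disjoint sdiff_disjoint]
    have e2 : (cl D X).card = X.card + L.card := by
      rw [← hXL, card_union_of_disjoint hLX.symm]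
    simp only [bd] at hcon
    rw [e1, e2] at hcon
    push_cast at hcon
    have : (0 : ℝ) ≤ (cl D L \ X).card - 2 * L.card := by linarith
    simp only [hd]
    exact_mod_cast this
  have hd0 : d ∅ = 0 := by
    have : cl D (∅ : Finset V) = ∅ := by
      rw [eq_empty_iff_forall_notMem]
      intro z hz
      rw [mem_cl] at hz
      simp at hz
    simp [hd, this]
  -- minimiser of d among the proper subsets of L, with the most elements
  obtain ⟨T0, hT0, hT0min⟩ := Finset.exists_min_image L.ssubsets d
    ⟨∅, by rw [mem_ssubsets]; exact hLne.empty_ssubset⟩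
  obtain ⟨T, hT, hTmax⟩ := Finset.exists_max_image (L.ssubsets.filter fun T => d T = d T0)
    Finset.card ⟨T0, mem_filter.2 ⟨hT0, rfl⟩⟩
  obtain ⟨hTL, hTd⟩ := mem_filter.1 hT
  rw [mem_ssubsets] at hTL
  have hmin' : ∀ S, S ⊂ L → d T ≤ d S := by
    intro S hS
    rw [hTd]
    exact hT0min S (mem_ssubsets.2 hS)
  have hT00 : d T ≤ 0 := by
    rw [← hd0]; exact hmin' ∅ hLne.empty_ssubset
  -- for every larger set the value does not drop
  have hbig : ∀ S, S ⊆ L → T ⊂ S → d T ≤ d S := by
    intro S hS hTS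
    by_cases hSL : S = L
    · rw [hSL]; exact hT00.trans hdL
    · exact hmin' S (lt_of_le_of_ne hS hSL)
  -- the graph with the arcs deleted
  set Z := L \ T with hZ
  have hZne : Z.Nonempty := by
    rw [hZ, sdiff_nonempty]
    exact fun h => hTL.2 h
  set D' := del D X Z with hD'
  have hsub : ∀ a b, D'.arc a b → D.arc a b := fun a b h => h.1
  have hZX : ∀ {z}, z ∈ Z → z ∉ X := fun {z} hz => (hLarc (mem_sdiff.1 hz).1).1
  have hbad : Bad D' := by
    intro y
    by_cases hy : y ∈ X ∧ ∃ z ∈ Z, D.arc y z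
    · obtain ⟨hyX, z0, hz0, hyz0⟩ := hy
      set Dy := (N1 D y) ∩ Z with hDy
      have hDyne : Dy.Nonempty := ⟨z0, mem_inter.2 ⟨mem_N1.2 hyz0, hz0⟩⟩
      have hN1 : N1 D' y = N1 D y \ Dy := by
        ext z
        rw [mem_N1, mem_sdiff, mem_N1, hDy, mem_inter, mem_N1]
        constructor
        · rintro ⟨h1, h2⟩
          exact ⟨h1, fun h3 => h2 ⟨hyX, h3.2⟩⟩
        · rintro ⟨h1, h2⟩
          exact ⟨h1, fun h3 => h2 ⟨h1, h3.2⟩⟩
      have hcN1 : (N1 D' y).card + Dy.card = (N1 D y).card := by
        rw [hN1, hDy]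
        exact card_sdiff_add_card_eq_card inter_subset_left
      set E := cl D Dy \ (cl D T ∪ X) with hE
      -- inequality (1)
      have h1 : 2 * Dy.card ≤ E.card := by
        have hDyL : Dy ⊆ L := inter_subset_right.trans sdiff_subset
        have hDyT : Disjoint T Dy := by
          rw [disjoint_left]
          intro z hz hz'
          exact (mem_sdiff.1 (mem_inter.1 hz').2).2 hz
        have h2 := hbig (T ∪ Dy) (union_subset hTL.1 hDyL) (by
          refine ⟨subset_union_left, fun h => ?_⟩
          obtain ⟨z, hz⟩ := hDyne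
          exact disjoint_left.1 hDyT (h (mem_union_right _ hz)) hz)
        have e1 : cl D (T ∪ Dy) \ X = (cl D T \ X) ∪ E := by
          rw [cl_union, hE]
          ext z
          simp only [mem_sdiff, mem_union]
          tauto
        have e2 : Disjoint (cl D T \ X) E := by
          rw [disjoint_left]
          intro z hz hz'
          exact (mem_sdiff.1 hz').2 (mem_union_left _ (mem_sdiff.1 hz).1)
        simp only [hd] at h2
        rw [e1, card_union_of_disjoint e2, card_union_of_disjoint hDyT] at h2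
        push_cast at h2
        omega
      -- the second neighbourhood
      have h3 : Disjoint (N2 D' y) E := by
        rw [disjoint_left]
        intro z hz hz'
        obtain ⟨hzy, hnz, c, hc, hcz⟩ := mem_N2.1 hz
        obtain ⟨h4, h5⟩ := mem_sdiff.1 hz'
        rw [mem_union] at h5
        push Not at h5
        obtain ⟨hzT, hzX⟩ := h5
        -- c ∈ X ∪ T
        have hcXT : c ∈ X ∨ c ∈ T := by
          by_contra hcc
          push Not at hcc
          have : c ∈ L := mem_sdiff.2 ⟨mem_cl.2 (Or.inr ⟨y, hyX, hc.1⟩), hcc.1⟩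
          exact hc.2 ⟨hyX, mem_sdiff.2 ⟨this, hcc.2⟩⟩
        rcases hcXT with hcX | hcT
        · -- z ∈ X ∪ T
          have hzL : z ∈ L := mem_sdiff.2 ⟨mem_cl.2 (Or.inr ⟨c, hcX, hcz.1⟩), hzX⟩
          have hzT' : z ∉ T := fun h => hzT (subset_cl D T h)
          exact hcz.2 ⟨hcX, mem_sdiff.2 ⟨hzL, hzT'⟩⟩
        · exact hzT (mem_cl.2 (Or.inr ⟨c, hcT, hcz.1⟩))
      have h4 : N2 D' y ∪ E ⊆ N2 D y ∪ Dy := by
        intro z hz
        rw [mem_union] at hz ⊢
        rcases hz with hz | hz
        · obtain ⟨hzy, hnz, c, hc, hcz⟩ := mem_N2.1 hz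
          by_cases hyz : D.arc y z
          · right
            rw [hDy, mem_inter]
            refine ⟨mem_N1.2 hyz, ?_⟩
            by_contra hzZ
            exact hnz ⟨hyz, fun h => hzZ h.2⟩
          · left
            exact mem_N2.2 ⟨hzy, hyz, c, hc.1, hcz.1⟩
        · obtain ⟨h5, h6⟩ := mem_sdiff.1 hz
          rw [mem_union] at h6
          push Not at h6
          obtain ⟨hzT, hzX⟩ := h6
          have hzy : z ≠ y := fun h => hzX (h ▸ hyX)
          by_cases hyz : D.arc y z
          · right
            rw [hDy, mem_inter]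
            refine ⟨mem_N1.2 hyz, mem_sdiff.2 ⟨mem_sdiff.2 ⟨mem_cl.2 (Or.inr ⟨y, hyX, hyz⟩), hzX⟩,
              fun h => hzT (subset_cl D T h)⟩⟩
          · left
            rcases mem_cl.1 h5 with h7 | ⟨c, hc, hcz⟩
            · exact absurd (mem_N1.1 (mem_inter.1 h7).1) hyz
            · exact mem_N2.2 ⟨hzy, hyz, c, mem_N1.1 (mem_inter.1 hc).1, hcz⟩
      have h5 := card_le_card h4
      rw [card_union_of_disjoint h3] at h5
      have h6 := (card_union_le (N2 D y) Dy)
      have h7 := hD y
      omega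
    · -- the out-neighbourhood is unchanged
      have hN1 : N1 D' y = N1 D y := by
        ext z
        rw [mem_N1, mem_N1]
        refine ⟨fun h => h.1, fun h => ⟨h, fun h2 => hy ⟨h2.1, z, h2.2, h⟩⟩⟩
      have hN2 : N2 D' y ⊆ N2 D y := by
        intro z hz
        obtain ⟨hzy, hnz, c, hc, hcz⟩ := mem_N2.1 hz
        refine mem_N2.2 ⟨hzy, fun h => hnz ?_, c, hc.1, hcz.1⟩
        exact mem_N1.1 (hN1 ▸ mem_N1.2 h)
      rw [hN1]
      exact (card_le_card hN2).trans_lt (hD y)
  obtain ⟨z, hz⟩ := hZne
  obtain ⟨_, y, hyX, hyz⟩ := hLarc (mem_sdiff.1 hz).1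
  exact (hmin D' hsub hbad y z hyz).2 ⟨hyX, hz⟩

/-- The weak inequality for every set. -/
theorem weakG {D : OGraph V} (hD : Bad D)
    (hmin : ∀ D' : OGraph V, (∀ a b, D'.arc a b → D.arc a b) → Bad D' →
      ∀ a b, D.arc a b → D'.arc a b)
    (X : Finset V) : bd D (cl D X) ≤ bd D X := by
  by_cases h : cl D X = X
  · rw [h]
  · exact (strictG hD hmin X h).le

/-- Every counterexample contains an arc-minimal one. -/
theorem exists_min {D : OGraph V} (hD : Bad D) : ∃ D1 : OGraph V, Bad D1 ∧
    ∀ D' : OGraph V, (∀ a b, D'.arc a b → D1.arc a b) → Bad D' →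
      ∀ a b, D1.arc a b → D'.arc a b := by
  classical
  obtain ⟨n, hn⟩ : ∃ n, (arcs D).card = n := ⟨_, rfl⟩
  induction n using Nat.strong_induction_on generalizing D with
  | _ n ih =>
  by_cases h : ∀ D' : OGraph V, (∀ a b, D'.arc a b → D.arc a b) → Bad D' →
      ∀ a b, D.arc a b → D'.arc a b
  · exact ⟨D, hD, h⟩
  · push Not at h
    obtain ⟨D', hsub, hbad, a, b, hab, hnab⟩ := h
    refine ih (arcs D').card ?_ hbad rfl
    rw [← hn]
    apply card_lt_card
    refine ⟨fun q hq => ?_, fun h => ?_⟩
    · simp only [arcs, mem_filter, mem_univ, true_and] at hq ⊢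
      exact hsub _ _ hq
    · have : (a, b) ∈ arcs D := by simp [arcs, hab]
      have := h this
      simp only [arcs, mem_filter, mem_univ, true_and] at this
      exact hnab this

end Vale.Agent.P038.H873
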