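import Vale.Agent.P038.Defs

/-!
# A two-dimensional Hall lemma

`I v` is an arbitrary set of rows attached to `v`; `inter I R v` is the intersection of the rows
`R s`, `s ∈ I v`.
-/

namespace Vale.Agent.P038.H873

open Finset

variable {V : Type*} [Fintype V] [DecidableEq V]

/-- The intersection of the rows `R s` over `s ∈ I v`. -/
def inter (I R : V → Finset V) (v : V) : Finset V :=
  univ.filter fun x => ∀ s ∈ I v, x ∈ R s

theorem mem_inter' {I R : V → Finset V} {v x : V} : x ∈ inter I R v ↔ ∀ s ∈ I v, x ∈ R s := by
  simp [inter]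

/-- Intersecting with row minimisers does not increase a submodular function. -/
theorem inherit (g : Finset V → ℝ) (hsub : ∀ S T, g (S ∪ T) + g (S ∩ T) ≤ g S + g T)
    (B U : V → Finset V) (hBU : ∀ a, B a ⊆ U a)
    (hR : ∀ a T, B a ⊆ T → T ⊆ U a → g (B a) ≤ g T) (T : Finset V) (J : Finset V) :
    (∀ s ∈ J, T ⊆ U s) → g (T.filter fun x => ∀ s ∈ J, x ∈ B s) ≤ g T := by
  induction J using Finset.induction_on with
  | empty => intro _; simp
  | insert s J hs ih =>
    intro h
    have ih' := ih (fun t ht => h t (mem_insert_of_mem ht))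
    set T1 := T.filter fun x => ∀ s ∈ J, x ∈ B s with hT1
    have e : (T.filter fun x => ∀ t ∈ insert s J, x ∈ B t) = T1 ∩ B s := by
      ext x
      simp only [hT1, mem_filter, mem_inter, mem_insert, forall_eq_or_imp]
      tauto
    rw [e]
    have h1 := hsub T1 (B s)
    have h2 : g (B s) ≤ g (T1 ∪ B s) := by
      apply hR s _ subset_union_right
      apply union_subset _ (hBU s)
      exact (filter_subset _ _).trans (h s (mem_insert_self _ _))
    linarith

/-- The two-dimensional Hall lemma. -/
theorem hall2 (I : V → Finset V) (U : V → Finset V) (n : ℕ) :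
    ∀ (f : Finset V → ℝ) (B : V → Finset V), ∑ a, (U a \ B a).card = n →
      (∀ S T, f (S ∪ T) + f (S ∩ T) ≤ f S + f T) →
      (∀ a, B a ⊆ U a) →
      (∀ a T, B a ⊆ T → T ⊆ U a → f (B a) ≤ f T) →
      (∀ (x : V) (K : Finset V), (∀ a ∈ K, x ∈ U a \ B a) →
        K.card ≤ (univ.filter fun v => x ∈ inter I U v ∧ ∃ a ∈ K, a ∈ I v).card) →
      ∑ a, (f (U a) - f (B a)) ≤ ∑ v, (f (inter I U v) - f (inter I B v)) := by
  induction n using Nat.strong_induction_on with
  | _ n ih =>
  intro f B hn hsub hBU hR hC
  by_cases hall : ∀ a, U a \ B a = ∅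
  · have hUB : U = B := by
      funext a
      exact Subset.antisymm (sdiff_eq_empty_iff_subset.1 (hall a)) (hBU a)
    subst hUB
    simp
  · push Not at hall
    obtain ⟨a1, ha1⟩ := hall
    -- the candidates
    set C : Finset (V × Finset V) :=
      univ.filter fun q => q.2.Nonempty ∧ q.2 ⊆ U q.1 \ B q.1 with hCdef
    have hCne : C.Nonempty := by
      refine ⟨(a1, U a1 \ B a1), ?_⟩
      simp only [hCdef, mem_filter, mem_univ, true_and]
      exact ⟨by simpa [nonempty_iff_ne_empty] using ha1, Subset.rfl⟩
    obtain ⟨⟨a0, S0⟩, hq0, hmin⟩ := Finset.exists_min_image C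
      (fun q => (f (B q.1 ∪ q.2) - f (B q.1)) / q.2.card) hCne
    simp only [hCdef, mem_filter, mem_univ, true_and] at hq0 hmin
    obtain ⟨hS0ne, hS0⟩ := hq0
    set lam : ℝ := (f (B a0 ∪ S0) - f (B a0)) / S0.card with hlam
    have hS0pos : (0 : ℝ) < S0.card := by exact_mod_cast hS0ne.card_pos
    have hS0U : S0 ⊆ U a0 := hS0.trans sdiff_subset
    have hlam0 : 0 ≤ lam := by
      apply div_nonneg _ hS0pos.le
      have := hR a0 (B a0 ∪ S0) subset_union_left (union_subset (hBU a0) hS0U)
      linarith
    set g : Finset V → ℝ := fun S => f S - lam * S.card with hg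
    have hgsub : ∀ S T, g (S ∪ T) + g (S ∩ T) ≤ g S + g T := by
      intro S T
      have h1 := hsub S T
      have h2 : ((S ∪ T).card : ℝ) + (S ∩ T).card = S.card + T.card := by
        exact_mod_cast card_union_add_card_inter S T
      simp only [hg]
      have h3 : lam * ((S ∪ T).card : ℝ) + lam * (S ∩ T).card = lam * S.card + lam * T.card := by
        rw [← mul_add, h2, mul_add]
      linarith
    have hgR : ∀ a T, B a ⊆ T → T ⊆ U a → g (B a) ≤ g T := by
      intro a T h1 h2
      by_cases hT : T \ B a = ∅
      · have : T = B a := Subset.antisymm (sdiff_eq_empty_iff_subset.1 hT) h1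
        rw [this]
      · have hTne : (T \ B a).Nonempty := nonempty_iff_ne_empty.2 hT
        have h3 := hmin (a, T \ B a) ⟨hTne, sdiff_subset_sdiff h2 Subset.rfl⟩
        simp only at h3
        have hpos : (0 : ℝ) < (T \ B a).card := by exact_mod_cast hTne.card_pos
        rw [le_div_iff₀ hpos] at h3
        have h4 : B a ∪ (T \ B a) = T := union_sdiff_of_subset h1
        rw [h4] at h3
        have h5 : ((T \ B a).card : ℝ) = T.card - (B a).card := by
          rw [card_sdiff_of_subset h1, Nat.cast_sub (card_le_card h1)]
        simp only [hg]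
        rw [h5] at h3
        have h6 : lam * ((T.card : ℝ) - (B a).card) ≤ f T - f (B a) := h3
        linarith [mul_sub lam (T.card : ℝ) (B a).card]
    set B' : V → Finset V := Function.update B a0 (B a0 ∪ S0) with hB'
    have hB'0 : B' a0 = B a0 ∪ S0 := by simp [hB']
    have hB'1 : ∀ a, a ≠ a0 → B' a = B a := fun a ha => by simp [hB', ha]
    have hBB' : ∀ a, B a ⊆ B' a := by
      intro a
      by_cases ha : a = a0
      · subst ha; rw [hB'0]; exact subset_union_left
      · rw [hB'1 a ha]
    have hB'U : ∀ a, B' a ⊆ U a := by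
      intro a
      by_cases ha : a = a0
      · subst ha; rw [hB'0]; exact union_subset (hBU _) hS0U
      · rw [hB'1 a ha]; exact hBU a
    have hS0dis : Disjoint (B a0) S0 := by
      rw [disjoint_left]
      intro x hx hx'
      exact (mem_sdiff.1 (hS0 hx')).2 hx
    have hgB : ∀ a, g (B' a) = g (B a) := by
      intro a
      by_cases ha : a = a0
      · subst ha
        rw [hB'0]
        simp only [hg]
        rw [card_union_of_disjoint hS0dis]
        have : lam * (S0.card : ℝ) = f (B a ∪ S0) - f (B a) := by
          rw [hlam]; field_simp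
        push_cast
        linarith [mul_add lam ((B a).card : ℝ) S0.card]
      · rw [hB'1 a ha]
    have hgR' : ∀ a T, B' a ⊆ T → T ⊆ U a → g (B' a) ≤ g T := by
      intro a T h1 h2
      rw [hgB a]
      exact hgR a T ((hBB' a).trans h1) h2
    have hC' : ∀ (x : V) (K : Finset V), (∀ a ∈ K, x ∈ U a \ B' a) →
        K.card ≤ (univ.filter fun v => x ∈ inter I U v ∧ ∃ a ∈ K, a ∈ I v).card := by
      intro x K hK
      apply hC x K
      intro a ha
      exact sdiff_subset_sdiff Subset.rfl (hBB' a) (hK a ha)
    have hlt : ∑ a, (U a \ B' a).card < n := by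
      rw [← hn]
      apply sum_lt_sum
      · intro a _
        exact card_le_card (sdiff_subset_sdiff Subset.rfl (hBB' a))
      · refine ⟨a0, mem_univ _, card_lt_card ?_⟩
        rw [hB'0]
        refine ⟨sdiff_subset_sdiff Subset.rfl subset_union_left, fun h => ?_⟩
        obtain ⟨x, hx⟩ := hS0ne
        have := h (hS0 hx)
        exact (mem_sdiff.1 this).2 (mem_union_right _ hx)
    have key := ih _ hlt g B' rfl hgsub hB'U hgR' hC'
    -- inherit
    have hinh : ∀ v, g (inter I B v) ≤ g (inter I B' v) := by
      intro v
      have h1 := inherit g hgsub B U hBU hgR (inter I B' v) (I v) (fun s hs x hx =>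
        hB'U s (mem_inter'.1 hx s hs))
      have e : (inter I B' v).filter (fun x => ∀ s ∈ I v, x ∈ B s) = inter I B v := by
        ext x
        rw [mem_filter, mem_inter', mem_inter']
        exact ⟨fun h => h.2, fun h => ⟨fun s hs => hBB' s (h s hs), h⟩⟩
      rw [e] at h1
      exact h1
    have hcard : ∑ a, ((U a \ B a).card : ℝ) ≤ ∑ v, ((inter I U v \ inter I B v).card : ℝ) := by
      have e1 : ∀ a, (U a \ B a).card = ∑ x, if x ∈ U a \ B a then 1 else 0 := by
        intro a
        rw [← card_filter, filter_mem_eq_inter, univ_inter]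
      have e2 : ∀ v, (inter I U v \ inter I B v).card =
          ∑ x, if x ∈ inter I U v \ inter I B v then 1 else 0 := by
        intro v
        rw [← card_filter, filter_mem_eq_inter, univ_inter]
      have : ∑ a, (U a \ B a).card ≤ ∑ v, (inter I U v \ inter I B v).card := by
        rw [sum_congr rfl (fun a _ => e1 a), sum_congr rfl (fun v _ => e2 v), sum_comm,
          sum_comm (f := fun v x => if x ∈ inter I U v \ inter I B v then 1 else 0)]
        apply sum_le_sum
        intro x _
        rw [← card_filter, ← card_filter]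
        refine (hC x (univ.filter fun a => x ∈ U a \ B a) (fun a ha => (mem_filter.1 ha).2)).trans ?_
        apply card_le_card
        intro v hv
        rw [mem_filter] at hv ⊢
        obtain ⟨_, hv1, a, ha, hav⟩ := hv
        refine ⟨mem_univ _, mem_sdiff.2 ⟨hv1, fun h => ?_⟩⟩
        exact (mem_sdiff.1 (mem_filter.1 ha).2).2 (mem_inter'.1 h a hav)
      exact_mod_cast this
    -- combine
    have hfa : ∀ a, f (U a) - f (B a) = (g (U a) - g (B' a)) + lam * ((U a \ B a).card : ℝ) := by
      intro a
      rw [hgB a]
      simp only [hg]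
      have h5 : ((U a \ B a).card : ℝ) = (U a).card - (B a).card := by
        rw [card_sdiff_of_subset (hBU a), Nat.cast_sub (card_le_card (hBU a))]
      rw [h5]
      ring
    have hfv : ∀ v, (g (inter I U v) - g (inter I B' v)) +
        lam * ((inter I U v \ inter I B v).card : ℝ) ≤ f (inter I U v) - f (inter I B v) := by
      intro v
      have h1 := hinh v
      have hs : inter I B v ⊆ inter I U v := by
        intro x hx
        rw [mem_inter'] at hx ⊢
        exact fun s hs => hBU s (hx s hs)
      have h5 : ((inter I U v \ inter I B v).card : ℝ) = (inter I U v).card - (inter I B v).card := by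
        rw [card_sdiff_of_subset hs, Nat.cast_sub (card_le_card hs)]
      rw [h5]
      simp only [hg] at h1 ⊢
      linarith [mul_sub lam ((inter I U v).card : ℝ) (inter I B v).card]
    calc ∑ a, (f (U a) - f (B a))
        = ∑ a, (g (U a) - g (B' a)) + lam * ∑ a, ((U a \ B a).card : ℝ) := by
          rw [mul_sum, ← sum_add_distrib]
          exact sum_congr rfl fun a _ => hfa a
      _ ≤ ∑ v, (g (inter I U v) - g (inter I B' v)) +
            lam * ∑ v, ((inter I U v \ inter I B v).card : ℝ) := by
          have := mul_le_mul_of_nonneg_left hcard hlam0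
          linarith
      _ ≤ ∑ v, (f (inter I U v) - f (inter I B v)) := by
          rw [mul_sum, ← sum_add_distrib]
          exact sum_le_sum fun v _ => hfv v

end Vale.Agent.P038.H873
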