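import Vale.Agent.P038.H873.Hall2
import Vale.Agent.P038.H873.G

/-!
# Seymour's second neighbourhood conjecture
-/

namespace Vale.Agent.P038.H873

open Finset

variable {V : Type*} [Fintype V] [DecidableEq V]

open Classical in
/-- The closed in-neighbourhood of a vertex. -/
noncomputable def inn (D : OGraph V) (v : V) : Finset V :=
  univ.filter fun s => s = v ∨ D.arc s v

theorem mem_inn {D : OGraph V} {v s : V} : s ∈ inn D v ↔ s = v ∨ D.arc s v := by
  simp [inn]

theorem self_mem_inn (D : OGraph V) (v : V) : v ∈ inn D v := mem_inn.2 (Or.inl rfl)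

/-- Valid pairs of relations. -/
def Valid (D : OGraph V) (q : (V → Finset V) × (V → Finset V)) : Prop :=
  (∀ a, cl D {a} ⊆ q.1 a) ∧ (∀ a, q.1 a ⊆ q.2 a) ∧ ∀ a x, x ∈ q.2 a → ¬ D.arc x a

/-- The outer cost of a pair. -/
noncomputable def outer (D : OGraph V) (q : (V → Finset V) × (V → Finset V)) : ℝ :=
  ∑ a, bd D (q.1 a) + ∑ a, (((q.2 a).card : ℝ) - (inter (inn D) q.2 a).card)

theorem inter_inn_sub {D : OGraph V} {R : V → Finset V} {a : V} : inter (inn D) R a ⊆ R a := by
  intro x hx
  exact mem_inter'.1 hx a (self_mem_inn D a)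

theorem exists_opt (D : OGraph V) : ∃ q, Valid D q ∧ ∀ q', Valid D q' → outer D q ≤ outer D q' := by
  classical
  obtain ⟨q, hq, hmin⟩ := Finset.exists_min_image
    (univ.filter fun q : (V → Finset V) × (V → Finset V) => Valid D q) (outer D)
    ⟨(fun a => cl D {a}, fun a => cl D {a}), by
      simp only [mem_filter, mem_univ, true_and]
      refine ⟨fun a => Subset.rfl, fun a => Subset.rfl, fun a x hx hxa => ?_⟩
      rcases mem_cl.1 hx with h | ⟨y, hy, hyx⟩
      · rw [mem_singleton] at h
        subst h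
        exact D.loopless _ hxa
      · rw [mem_singleton] at hy
        subst hy
        exact D.asymm _ _ hyx hxa⟩
  exact ⟨q, (mem_filter.1 hq).2, fun q' hq' => hmin q' (mem_filter.2 ⟨mem_univ _, hq'⟩)⟩

section Opt

variable {D : OGraph V} {B U : V → Finset V}

/-- Row optimality. -/
theorem opt_row (hv : Valid D (B, U)) (hmin : ∀ q', Valid D q' → outer D (B, U) ≤ outer D q')
    (a : V) (T : Finset V) (h1 : B a ⊆ T) (h2 : T ⊆ U a) : bd D (B a) ≤ bd D T := by
  classical
  have hv' : Valid D (Function.update B a T, U) := by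
    refine ⟨fun b => ?_, fun b => ?_, hv.2.2⟩
    · by_cases hb : b = a
      · subst hb
        simp only [Function.update_self]
        exact (hv.1 b).trans h1
      · simp only [Function.update_of_ne hb]
        exact hv.1 b
    · by_cases hb : b = a
      · subst hb
        simpa only [Function.update_self] using h2
      · simp only [Function.update_of_ne hb]
        exact hv.2.1 b
  have h := hmin _ hv'
  simp only [outer] at h
  have e : ∑ b, bd D (Function.update B a T b) - ∑ b, bd D (B b) = bd D T - bd D (B a) := by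
    rw [← sum_sub_distrib, Finset.sum_eq_single a]
    · simp
    · intro b _ hb
      simp [hb]
    · simp
  linarith

/-- Column optimality. -/
theorem opt_col (hv : Valid D (B, U)) (hmin : ∀ q', Valid D q' → outer D (B, U) ≤ outer D q')
    (x : V) (K : Finset V) (hK : ∀ a ∈ K, x ∈ U a \ B a) :
    K.card ≤ (univ.filter fun v => x ∈ inter (inn D) U v ∧ ∃ a ∈ K, a ∈ inn D v).card := by
  classical
  set U' : V → Finset V := fun a => if a ∈ K then (U a).erase x else U a with hU'
  have hU'sub : ∀ a, U' a ⊆ U a := by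
    intro a
    simp only [hU']
    split_ifs
    · exact erase_subset _ _
    · exact Subset.rfl
  have hv' : Valid D (B, U') := by
    refine ⟨hv.1, fun a => ?_, fun a y hy => hv.2.2 a y (hU'sub a hy)⟩
    simp only [hU']
    split_ifs with ha
    · intro y hy
      refine mem_erase.2 ⟨?_, hv.2.1 a hy⟩
      rintro rfl
      exact (mem_sdiff.1 (hK a ha)).2 hy
    · exact hv.2.1 a
  have h := hmin _ hv'
  simp only [outer] at h
  have c1 : ∀ a, ((U' a).card : ℝ) = (U a).card - (if a ∈ K then 1 else 0) := by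
    intro a
    simp only [hU']
    split_ifs with ha
    · have := card_erase_add_one (mem_sdiff.1 (hK a ha)).1
      rw [← this]
      push_cast
      ring
    · simp
  have c2 : ∀ v, ((inter (inn D) U' v).card : ℝ) = (inter (inn D) U v).card -
      (if (x ∈ inter (inn D) U v ∧ ∃ a ∈ K, a ∈ inn D v) then 1 else 0) := by
    intro v
    split_ifs with hc
    · have e : inter (inn D) U' v = (inter (inn D) U v).erase x := by
        ext y
        rw [mem_erase, mem_inter', mem_inter']
        obtain ⟨_, a, haK, hav⟩ := hc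
        constructor
        · intro hy
          refine ⟨?_, fun s hs => hU'sub s (hy s hs)⟩
          rintro rfl
          have := hy a hav
          simp only [hU', if_pos haK] at this
          exact (mem_erase.1 this).1 rfl
        · rintro ⟨hyx, hy⟩ s hs
          simp only [hU']
          split_ifs
          · exact mem_erase.2 ⟨hyx, hy s hs⟩
          · exact hy s hs
      rw [e]
      have := card_erase_add_one hc.1
      rw [← this]
      push_cast
      ring
    · have e : inter (inn D) U' v = inter (inn D) U v := by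
        ext y
        rw [mem_inter', mem_inter']
        constructor
        · exact fun hy s hs => hU'sub s (hy s hs)
        · intro hy s hs
          simp only [hU']
          split_ifs with hsK
          · refine mem_erase.2 ⟨?_, hy s hs⟩
            rintro rfl
            exact hc ⟨mem_inter'.2 hy, s, hsK, hs⟩
          · exact hy s hs
      rw [e]
      ring
  have s1 : ∑ a, (((U' a).card : ℝ) - (inter (inn D) U' a).card) =
      ∑ a, (((U a).card : ℝ) - (inter (inn D) U a).card) - K.card +
      (univ.filter fun v => x ∈ inter (inn D) U v ∧ ∃ a ∈ K, a ∈ inn D v).card := by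
    rw [sum_congr rfl (fun a _ => by rw [c1 a, c2 a])]
    rw [sum_sub_distrib, sum_sub_distrib, sum_sub_distrib, sum_sub_distrib]
    have t1 : ∑ a : V, (if a ∈ K then (1 : ℝ) else 0) = K.card := by
      rw [sum_boole, filter_mem_eq_inter, univ_inter]
    have t2 : ∑ v : V, (if (x ∈ inter (inn D) U v ∧ ∃ a ∈ K, a ∈ inn D v) then (1 : ℝ) else 0) =
        (univ.filter fun v => x ∈ inter (inn D) U v ∧ ∃ a ∈ K, a ∈ inn D v).card := by
      rw [sum_boole]
    rw [t1, t2]
    ring
  rw [s1] at h
  have : (K.card : ℝ) ≤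
      (univ.filter fun v => x ∈ inter (inn D) U v ∧ ∃ a ∈ K, a ∈ inn D v).card := by
    linarith
  exact_mod_cast this

end Opt

/-- The contradiction. -/
theorem no_bad [Nonempty V] {D : OGraph V} (hD : Bad D)
    (hminD : ∀ D' : OGraph V, (∀ a b, D'.arc a b → D.arc a b) → Bad D' →
      ∀ a b, D.arc a b → D'.arc a b) : False := by
  classical
  obtain ⟨⟨B, U⟩, hv, hmin⟩ := exists_opt D
  obtain ⟨hAB, hBU, hUA⟩ := id hv
  simp only at hAB hBU hUA
  have hkey := hall2 (inn D) U _ (bd D) B rfl (bd_sub D) hBU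
    (fun a T h1 h2 => opt_row hv hmin a T h1 h2)
    (fun x K hK => opt_col hv hmin x K hK)
  set X : V → Finset V := inter (inn D) B with hXdef
  set JU : V → Finset V := inter (inn D) U with hJU
  set Q : V → Finset V := fun a => cl D (JU a) with hQdef
  set Y : V → Finset V := fun b => univ.filter fun x =>
    ∀ y, (y = x ∨ D.arc x y) → y ≠ b → b ∉ Q y with hYdef
  have memY : ∀ {b x}, x ∈ Y b ↔ ∀ y, (y = x ∨ D.arc x y) → y ≠ b → b ∉ Q y := by
    intro b x
    simp [hYdef]
  have hXJU : ∀ a, X a ⊆ JU a := by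
    intro a x hx
    exact mem_inter'.2 fun s hs => hBU s (mem_inter'.1 hx s hs)
  have hJUU : ∀ a, JU a ⊆ U a := fun a => inter_inn_sub
  -- (i)
  have hXself : ∀ a, a ∈ X a := by
    intro a
    refine mem_inter'.2 fun s hs => hAB s ?_
    rcases mem_inn.1 hs with h | h
    · exact mem_cl.2 (Or.inl (by simp [h]))
    · exact mem_cl.2 (Or.inr ⟨s, by simp, h⟩)
  -- (ii)
  have hQ : ∀ b c, c ∈ Q b → ¬ D.arc c b := by
    intro b c hc hcb
    rcases mem_cl.1 hc with h | ⟨x, hx, hxc⟩
    · exact hUA b c (hJUU b h) hcb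
    · have hxU : x ∈ U c := mem_inter'.1 hx c (mem_inn.2 (Or.inr hcb))
      exact hUA c x hxU hxc
  have hYself : ∀ b, b ∈ Y b := by
    intro b
    rw [memY]
    intro y hy hyb hbQ
    rcases hy with h | h
    · exact hyb h
    · exact hQ y b hbQ h
  -- (v)
  have hYQ : ∀ b y, y ∈ cl D (Y b) → y ≠ b → b ∉ Q y := by
    intro b y hy hyb
    rcases mem_cl.1 hy with h | ⟨x, hx, hxy⟩
    · exact memY.1 h y (Or.inl rfl) hyb
    · exact memY.1 hx y (Or.inr hxy) hyb
  -- (iii)
  have hYcost : ∑ b, bd D (Y b) ≤ ∑ y, (((cl D (U y)).card : ℝ) - (cl D (JU y)).card) := by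
    have e1 : ∀ b, bd D (Y b) = ∑ y, if (y ∈ cl D (Y b) ∧ y ∉ Y b) then (1 : ℝ) else 0 := by
      intro b
      rw [sum_boole]
      have : (univ.filter fun y => y ∈ cl D (Y b) ∧ y ∉ Y b) = cl D (Y b) \ Y b := by
        ext y; simp
      rw [this, card_sdiff_of_subset (subset_cl D _), Nat.cast_sub (card_le_card (subset_cl D _))]
      rfl
    have e2 : ∀ y, (((cl D (U y)).card : ℝ) - (cl D (JU y)).card) =
        ∑ b, if (b ∈ cl D (U y) ∧ b ∉ cl D (JU y)) then (1 : ℝ) else 0 := by
      intro y
      rw [sum_boole]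
      have : (univ.filter fun b => b ∈ cl D (U y) ∧ b ∉ cl D (JU y)) =
          cl D (U y) \ cl D (JU y) := by
        ext b; simp
      rw [this, card_sdiff_of_subset (cl_mono (hJUU y)),
        Nat.cast_sub (card_le_card (cl_mono (hJUU y)))]
    rw [sum_congr rfl (fun b _ => e1 b), sum_congr rfl (fun y _ => e2 y), sum_comm]
    apply sum_le_sum
    intro y _
    apply sum_le_sum
    intro b _
    by_cases h : y ∈ cl D (Y b) ∧ y ∉ Y b
    · rw [if_pos h, if_pos]
      have hyb : y ≠ b := fun e => h.2 (e ▸ hYself b)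
      have hbQ := hYQ b y h.1 hyb
      refine ⟨?_, hbQ⟩
      -- some y' ∈ N[y] with b ∈ Q y'
      have h2 := h.2
      rw [memY] at h2
      push Not at h2
      obtain ⟨y', hy', _, hbQ'⟩ := h2
      have hyinn : y ∈ inn D y' := by
        rcases hy' with e | e
        · exact mem_inn.2 (Or.inl e.symm)
        · exact mem_inn.2 (Or.inr e)
      rcases mem_cl.1 hbQ' with h3 | ⟨x, hx, hxb⟩
      · exact mem_cl.2 (Or.inl (mem_inter'.1 h3 y hyinn))
      · exact mem_cl.2 (Or.inr ⟨x, mem_inter'.1 hx y hyinn, hxb⟩)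
    · rw [if_neg h]
      split_ifs <;> norm_num
  -- (iv)
  set B0 : V → Finset V := fun a => cl D (X a) with hB0
  set U0 : V → Finset V := fun y => univ.filter fun b => y ∉ cl D (Y b) ∨ y = b with hU0
  have memU0 : ∀ {y b}, b ∈ U0 y ↔ y ∉ cl D (Y b) ∨ y = b := by
    intro y b
    simp [hU0]
  have hB0U0 : ∀ a, B0 a ⊆ U0 a := by
    intro a b hb
    rw [memU0]
    by_contra hcon
    push Not at hcon
    exact hYQ b a hcon.1 hcon.2 (cl_mono (hXJU a) hb)
  have hv0 : Valid D (B0, U0) := by
    refine ⟨fun a => ?_, hB0U0, fun a x hx hxa => ?_⟩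
    · apply cl_mono
      simpa using hXself a
    · rcases memU0.1 hx with h | h
      · exact h (mem_cl.2 (Or.inr ⟨x, hYself x, hxa⟩))
      · subst h
        exact D.loopless _ hxa
  have h0 := hmin _ hv0
  have hU0cost : ∑ y, (((U0 y).card : ℝ) - (inter (inn D) U0 y).card) ≤
      ∑ b, bd D (cl D (Y b)) := by
    have e1 : ∀ b, bd D (cl D (Y b)) =
        ∑ y, if (y ∈ cl D (cl D (Y b)) ∧ y ∉ cl D (Y b)) then (1 : ℝ) else 0 := by
      intro b
      rw [sum_boole]
      have : (univ.filter fun y => y ∈ cl D (cl D (Y b)) ∧ y ∉ cl D (Y b)) =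
          cl D (cl D (Y b)) \ cl D (Y b) := by
        ext y; simp
      rw [this, card_sdiff_of_subset (subset_cl D _), Nat.cast_sub (card_le_card (subset_cl D _))]
      rfl
    have e2 : ∀ y, (((U0 y).card : ℝ) - (inter (inn D) U0 y).card) =
        ∑ b, if (b ∈ U0 y ∧ b ∉ inter (inn D) U0 y) then (1 : ℝ) else 0 := by
      intro y
      rw [sum_boole]
      have : (univ.filter fun b => b ∈ U0 y ∧ b ∉ inter (inn D) U0 y) =
          U0 y \ inter (inn D) U0 y := by
        ext b; simp
      rw [this, card_sdiff_of_subset inter_inn_sub, Nat.cast_sub (card_le_card inter_inn_sub)]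
    rw [sum_congr rfl (fun b _ => e1 b), sum_congr rfl (fun y _ => e2 y), sum_comm]
    apply sum_le_sum
    intro b _
    apply sum_le_sum
    intro y _
    by_cases h : b ∈ U0 y ∧ b ∉ inter (inn D) U0 y
    · rw [if_pos h, if_pos]
      obtain ⟨h1, h2⟩ := h
      rw [mem_inter'] at h2
      push Not at h2
      obtain ⟨s, hs, hbs⟩ := h2
      have hbs' : s ∈ cl D (Y b) ∧ s ≠ b := by
        rw [memU0] at hbs
        push Not at hbs
        exact hbs
      have hycl : y ∈ cl D (cl D (Y b)) := by
        rcases mem_inn.1 hs with e | e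
        · exact subset_cl _ _ (e ▸ hbs'.1)
        · exact mem_cl.2 (Or.inr ⟨s, hbs'.1, e⟩)
      refine ⟨hycl, ?_⟩
      rcases memU0.1 h1 with h3 | h3
      · exact h3
      · exfalso
        subst h3
        rcases mem_inn.1 hs with e | e
        · exact hbs'.2 e
        · apply hbs
          apply hB0U0 s
          exact mem_cl.2 (Or.inr ⟨s, hXself s, e⟩)
    · rw [if_neg h]
      split_ifs <;> norm_num
  -- (G)
  have hGX : ∀ a, bd D (cl D (X a)) ≤ bd D (X a) := fun a => weakG hD hminD (X a)
  have hGY : ∀ b, bd D (cl D (Y b)) ≤ bd D (Y b) := fun b => weakG hD hminD (Y b)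
  -- strictness
  have hstrict : ∃ a, cl D (X a) ≠ X a := by
    by_contra hcon
    push Not at hcon
    have hout : ∀ v, ∃ u, D.arc v u := by
      intro v
      have h1 := hD v
      have h2 : 0 < (N1 D v).card := by omega
      obtain ⟨u, hu⟩ := card_pos.1 h2
      exact ⟨u, mem_N1.1 hu⟩
    choose nx hnx using hout
    obtain ⟨v0⟩ := ‹Nonempty V›
    obtain ⟨m, n, hmn, heq⟩ := Finite.exists_ne_map_eq_of_infinite (fun k : ℕ => nx^[k] v0)
    wlog hlt : m < n generalizing m n
    · exact this n m hmn.symm heq.symm (lt_of_le_of_ne (not_lt.1 hlt) hmn.symm)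
    set a := nx^[m] v0 with ha
    have hper : nx^[n - m] a = a := by
      rw [ha, ← Function.iterate_add_apply, Nat.sub_add_cancel hlt.le]
      exact heq.symm
    have hall : ∀ k, nx^[k] a ∈ X a := by
      intro k
      induction k with
      | zero => exact hXself a
      | succ k ih =>
        rw [Function.iterate_succ_apply', ← hcon a]
        exact mem_cl.2 (Or.inr ⟨_, ih, hnx _⟩)
    obtain ⟨k, hk⟩ : ∃ k, n - m = k + 1 := ⟨n - m - 1, by omega⟩
    rw [hk, Function.iterate_succ_apply'] at hper
    have h1 : D.arc (nx^[k] a) a := by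
      have := hnx (nx^[k] a)
      rwa [hper] at this
    exact hQ a _ (subset_cl _ _ (hXJU a (hall k))) h1
  obtain ⟨a0, ha0⟩ := hstrict
  have hsum : ∑ a, bd D (cl D (X a)) < ∑ a, bd D (X a) := by
    apply sum_lt_sum (fun a _ => hGX a)
    exact ⟨a0, mem_univ _, strictG hD hminD (X a0) ha0⟩
  have hsumY : ∑ b, bd D (cl D (Y b)) ≤ ∑ b, bd D (Y b) := sum_le_sum fun b _ => hGY b
  -- combine
  simp only [outer] at h0
  have hk2 : ∑ a, (bd D (U a) - bd D (B a)) ≤ ∑ v, (bd D (JU v) - bd D (X v)) := hkey
  simp only [bd] at hk2 hYcost hsum hsumY h0 hU0cost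
  simp only [sum_sub_distrib] at hk2 hYcost hsum hsumY h0 hU0cost
  simp only [hB0] at h0
  linarith

/-- Seymour's second neighbourhood conjecture. -/
theorem seymour {V : Type*} [Fintype V] [Nonempty V] (D : OGraph V) :
    ∃ v, (N1 D v).card ≤ (N2 D v).card := by
  classical
  by_contra hcon
  push Not at hcon
  obtain ⟨D1, h1, h2⟩ := exists_min (D := D) hcon
  exact no_bad h1 h2

end Vale.Agent.P038.H873
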